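import Vale.Agent.P224.PU.Sub
import Vale.Agent.P224.UG.Def

/-!
The certificate of the Gaussian law and its pointwise inequality.
-/

namespace Vale.Agent.P224.PU

open Vale.Agent.P224.UE Vale.Agent.P224.POS Vale.Agent.P224.UG
open Vale.Agent.P224.SH (pv pv')
open scoped RealInnerProductSpace

noncomputable section

/-- the term in the notation of the Gaussian law -/
def UT.G (D : ℤ) (t : UT) : GTerm × (ℝ → ℝ) × (ℝ → ℝ) :=
  match t.fam with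
  | 0 => (⟨0, t.a, 0, t.k, 0, t.l⟩, fun T => pv t.φ T / D, fun T => pv' t.φ T / D)
  | 1 => (⟨3, t.a, 0, t.k, 0, t.l⟩, fun T => -(pv t.φ T / D), fun T => -(pv' t.φ T / D))
  | _ => (⟨1, t.a, 0, t.k, 0, t.l⟩, fun T => pv t.φ T / (D * (1 - T ^ 2)), fun _ => 0)

/-- the certificate in the notation of the Gaussian law -/
def certU (D : ℤ) (L : List UT) : Cert := L.map (UT.G D)

/-- pair data with given cone data -/
def d8 (v : R8) : R9 := ![0, v 1, v 0, v 2, v 3, v 4, 0, 0, v 7]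

lemma UT.D_eq {D : ℤ} (hD : D ≠ 0) (t : UT) {T : ℝ} (hT : 1 - T ^ 2 ≠ 0) (v : R8) :
    (t.G D).1.D T ((t.G D).2.1 T) ((t.G D).2.2 T) v = t.J T (d8 v) / (D * (1 - T ^ 2)) := by
  have hD' : (D : ℝ) ≠ 0 := by exact_mod_cast hD
  obtain ⟨fam, a, k, l, φ⟩ := t
  have e1 : d8 v 1 = v 1 := rfl
  have e2 : d8 v 2 = v 0 := rfl
  have e3 : d8 v 3 = v 2 := rfl
  have e4 : d8 v 4 = v 3 := rfl
  have e5 : d8 v 5 = v 4 := rfl
  have e8 : d8 v 8 = v 7 := rfl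
  rcases fam with _ | _ | fam <;>
  · simp only [UT.G, GTerm.D, GTerm.g, GTerm.gQ, GTerm.gZ, GTerm.w, UT.J, e1, e2, e3, e4, e5, e8,
      pow_zero, mul_one, Nat.cast_zero, zero_mul, mul_zero, add_zero, sub_zero]
    field_simp
    try ring

lemma Dsum_certU {D : ℤ} (hD : D ≠ 0) (L : List UT) {T : ℝ} (hT : 1 - T ^ 2 ≠ 0) (v : R8) :
    Dsum (certU D L) T v = (L.map fun t => t.J T (d8 v)).sum / (D * (1 - T ^ 2)) := by
  unfold Dsum certU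
  induction L with
  | nil => simp
  | cons t L ih =>
    rw [List.map_cons, List.map_cons, List.sum_cons, ih, UT.D_eq hD t hT, List.map_cons,
      List.sum_cons, add_div]

lemma d8_sw8 (T : ℝ) (v : R8) : d8 (sw8 T v) = sw9 (d8 v) := by
  ext i
  fin_cases i <;> simp [d8, sw8, sw9]

/-- the symmetrised integrand of the certificate -/
lemma Dsum_sym {D : ℤ} (hD : D ≠ 0) (L : List UT) {T : ℝ} (hT : 1 - T ^ 2 ≠ 0) (v : R8) :
    Dsum (certU D L) T v + Dsum (certU D L) T (sw8 T v)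
      = -(2 / (1 - T ^ 2) * UW D L T (d8 v)) := by
  have hD' : (D : ℝ) ≠ 0 := by exact_mod_cast hD
  rw [Dsum_certU hD L hT, Dsum_certU hD L hT, d8_sw8]
  unfold UW
  rw [List.sum_map_add]
  field_simp

/-- **The pointwise inequality of the Gaussian law** from the kernel check. -/
theorem hpos_of_chkU {D : ℤ} (hD : 0 < D) {L : List UT} {B : List (Nat × Nat × Blk)}
    {Ms : List ℕ} {k : ℤ} (hk : 0 ≤ k)
    (hid : chk Ms (PE.sub (PE.sb sbU (lhsU L)) (PE.mul (PE.c k) (rhsU B))) = true)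
    (hB : ∀ b ∈ B, tri b.2.2.G 0 = true ∧ QPos b.2.2.G) {T : ℝ} (hT0 : 0 < T) (hT1 : T < 1)
    {E : Type*} [NormedAddCommGroup E] [InnerProductSpace ℝ E]
    {N w e : E} (he : ‖e‖ ^ 2 ≤ 25 / 36) (hN : ‖N‖ = 1) (hw : ‖w‖ = 1) (P Q Z Xi : ℝ) :
    Dsum (certU D L) T ![P, Q, ⟪N, w⟫, ⟪N, e⟫, ⟪w, e⟫, Z, Xi, ⟪e, e⟫]
      + Dsum (certU D L) T (sw8 T ![P, Q, ⟪N, w⟫, ⟪N, e⟫, ⟪w, e⟫, Z, Xi, ⟪e, e⟫]) ≤ 0 := by
  have hT : 0 < 1 - T ^ 2 := by nlinarith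
  rw [Dsum_sym hD.ne' L hT.ne']
  have h := nonneg_of_chkU' hD hk hid hB hT0.le hT1.le he hN hw
    (d := d8 ![P, Q, ⟪N, w⟫, ⟪N, e⟫, ⟪w, e⟫, Z, Xi, ⟪e, e⟫]) rfl rfl rfl rfl
  have : 0 ≤ 2 / (1 - T ^ 2) * UW D L T (d8 ![P, Q, ⟪N, w⟫, ⟪N, e⟫, ⟪w, e⟫, Z, Xi, ⟪e, e⟫]) :=
    mul_nonneg (by positivity) h
  linarith

end

end Vale.Agent.P224.PU
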