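import Vale.Agent.P224.PU.KSub

/-!
The coefficient functions of the Gaussian certificate: continuity, derivative, values at the ends.
-/

namespace Vale.Agent.P224.PU

open Set Filter
open Vale.Agent.P224.UE Vale.Agent.P224.POS Vale.Agent.P224.UG
open Vale.Agent.P224.SH (pv pv')
open scoped Topology

noncomputable section

variable {D : ℤ}

lemma KT.phi_eq (x : KT) (h : isN x.t.fam = false) :
    (x.G D).2.1 = fun T => pv x.ψ (kf T) / D := by
  funext T
  simp [KT.G, h]

lemma KT.phi'_eq (x : KT) (h : isN x.t.fam = false) :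
    (x.G D).2.2 = fun T => -(pv' x.ψ (kf T) * kf T / (D * (1 - T ^ 2))) := by
  funext T
  simp [KT.G, h]

/-- continuity of the coefficient functions -/
theorem KT.continuousOn (x : KT) (h : isN x.t.fam = false) :
    ContinuousOn (x.G D).2.1 (Icc 0 1) := by
  rw [x.phi_eq h]
  exact ((SH.continuous_pv x.ψ).comp_continuousOn continuousOn_kf).div_const _

/-- the derivative of the coefficient functions -/
theorem KT.hasDerivAt (x : KT) (h : isN x.t.fam = false) {T : ℝ} (h0 : -1 < T) (h1 : T < 1) :
    HasDerivAt (x.G D).2.1 ((x.G D).2.2 T) T := by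
  rw [x.phi_eq h, x.phi'_eq h]
  have h2 := ((SH.hasDerivAt_pv x.ψ (kf T)).comp T (hasDerivAt_kf h0 h1)).div_const (D : ℝ)
  refine h2.congr_deriv ?_
  have h3 : (1 : ℝ) - T ^ 2 ≠ 0 := by nlinarith
  by_cases hD : (D : ℝ) = 0
  · simp [hD]
  · field_simp

/-- the value at `T = 0` -/
lemma KT.phi_zero (x : KT) (h : isN x.t.fam = false) : (x.G D).2.1 0 = pv x.ψ 1 / D := by
  rw [x.phi_eq h]
  simp only [kf_zero]

/-- the value at `T = 1` -/
lemma KT.phi_one (x : KT) (h : isN x.t.fam = false) : (x.G D).2.1 1 = pv x.ψ 0 / D := by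
  rw [x.phi_eq h]
  simp only [kf_one]

/-- the sum of the coefficients -/
def lsum (l : List Int) : Int := List.rec (motive := fun _ => Int) 0 (fun a _ ih => Int.add a ih) l

lemma pv_at_one (l : List ℤ) : pv l 1 = lsum l := by
  induction l with
  | nil => simp [pv, lsum]
  | cons a l ih =>
    have e : lsum (a :: l) = a + lsum l := rfl
    rw [e]
    unfold pv
    rw [ih]
    push_cast
    ring

lemma pv_at_zero (l : List ℤ) : pv l 0 = (l.headD 0 : ℤ) := by
  cases l with
  | nil => simp [pv]
  | cons a l => simp [pv]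

/-- the coefficient vanishes at both ends -/
def endOk (x : KT) : Bool := decide (lsum x.ψ = 0) && decide (x.ψ.headD 0 = 0)

lemma KT.ends (x : KT) (h : isN x.t.fam = false) (he : endOk x = true) :
    (x.G D).2.1 0 = 0 ∧ (x.G D).2.1 1 = 0 := by
  unfold endOk at he
  rw [Bool.and_eq_true, decide_eq_true_eq, decide_eq_true_eq] at he
  rw [x.phi_zero h, x.phi_one h, pv_at_one, pv_at_zero, he.1, he.2]
  simp

end

end Vale.Agent.P224.PU
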