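import Vale.Agent.P224.UG.LawU
import Vale.Agent.P224.UG.Cone
import Vale.Agent.P224.POS.ZL
import Vale.Agent.P224.PU.KCoef

/-!
The final assembly of the Gaussian law: a certificate in the variable `k` gives a volume bound in
every dimension.
-/

namespace Vale.Agent.P224.PU

open MeasureTheory Set Filter Function Module Vale.Agent.P224 Vale.Agent.P224.UE
open Vale.Agent.P224.UG Vale.Agent.P224.POS
open Vale.Agent.P224.SH (pv pv')
open scoped Topology RealInnerProductSpace ENNReal ContDiff Manifold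

noncomputable section

/-- the check of the exponents and of the values of the coefficients at the ends -/
def okK (L : List KT) : Bool :=
  L.all fun x => Nat.ble x.t.b 2 && (isN x.t.fam || ((x.t.k0ok || decide (lsum x.ψ = 0))
    && (x.t.k1ok || decide (x.ψ.headD 0 = 0))))

lemma isN_of_act {t : GTerm} (h : t.act) : isN t.fam = false := by
  obtain ⟨fam, a, b, k, d, l⟩ := t
  unfold GTerm.act at h
  rcases h with h | h | h <;> simp only at h <;> subst h <;> rfl

lemma kok_of_isN {t : GTerm} (h : isN t.fam = true) : t.k0ok = true ∧ t.k1ok = true := by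
  obtain ⟨fam, a, b, k, d, l⟩ := t
  fin_cases fam
  · exact absurd h (by simp [isN])
  · exact ⟨rfl, rfl⟩
  · exact ⟨rfl, rfl⟩
  · exact absurd h (by simp [isN])
  · exact absurd h (by simp [isN])
  · exact ⟨rfl, rfl⟩

section

variable {D : ℤ} {L : List KT}

lemma mem_certK {t : GTerm × (ℝ → ℝ) × (ℝ → ℝ)} (h : t ∈ certK D L) :
    ∃ x ∈ L, t = x.G D := by
  unfold certK at h
  obtain ⟨x, hx, rfl⟩ := List.mem_map.1 h
  exact ⟨x, hx, rfl⟩

lemma okK_mem (hok : okK L = true) {x : KT} (hx : x ∈ L) : x.t.b ≤ 2 ∧ (isN x.t.fam = true ∨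
    ((x.t.k0ok = true ∨ lsum x.ψ = 0) ∧ (x.t.k1ok = true ∨ x.ψ.headD 0 = 0))) := by
  unfold okK at hok
  have h := List.all_eq_true.1 hok x hx
  simp only [Bool.and_eq_true, Bool.or_eq_true, decide_eq_true_eq, Nat.ble_eq] at h
  exact h

lemma hb_certK (hok : okK L = true) : ∀ t ∈ certK D L, t.1.b ≤ 2 := by
  intro t ht
  obtain ⟨x, hx, rfl⟩ := mem_certK ht
  exact (okK_mem hok hx).1

lemma hc_certK : ∀ t ∈ certK D L, t.1.act → ContinuousOn t.2.1 (Icc 0 1) := by
  intro t ht ha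
  obtain ⟨x, hx, rfl⟩ := mem_certK ht
  exact x.continuousOn (isN_of_act ha)

lemma hd_certK : ∀ t ∈ certK D L, t.1.act → ∀ T ∈ Ioo (0 : ℝ) 1,
    HasDerivAt t.2.1 (t.2.2 T) T := by
  intro t ht ha T hT
  obtain ⟨x, hx, rfl⟩ := mem_certK ht
  exact x.hasDerivAt (isN_of_act ha) (by linarith [hT.1]) hT.2

lemma h0_certK (hok : okK L = true) : ∀ t ∈ certK D L, t.1.k0ok = true ∨ t.2.1 0 = 0 := by
  intro t ht
  obtain ⟨x, hx, rfl⟩ := mem_certK ht
  rcases (okK_mem hok hx).2 with h | ⟨h, -⟩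
  · exact Or.inl (kok_of_isN h).1
  · rcases h with h | h
    · exact Or.inl h
    · by_cases hn : isN x.t.fam = true
      · exact Or.inl (kok_of_isN hn).1
      · refine Or.inr ?_
        rw [x.phi_zero (by simpa using hn), pv_at_one, h]
        simp

lemma h1_certK (hok : okK L = true) : ∀ t ∈ certK D L, t.1.k1ok = true ∨ t.2.1 1 = 0 := by
  intro t ht
  obtain ⟨x, hx, rfl⟩ := mem_certK ht
  rcases (okK_mem hok hx).2 with h | ⟨-, h⟩
  · exact Or.inl (kok_of_isN h).2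
  · rcases h with h | h
    · exact Or.inl h
    · by_cases hn : isN x.t.fam = true
      · exact Or.inl (kok_of_isN hn).2
      · refine Or.inr ?_
        rw [x.phi_one (by simpa using hn), pv_at_zero, h]
        simp

end

section

variable {V W M : Type*} [NormedAddCommGroup V] [InnerProductSpace ℝ V] [FiniteDimensional ℝ V]
  [NormedAddCommGroup W] [InnerProductSpace ℝ W] [FiniteDimensional ℝ W]
  [TopologicalSpace M] [ChartedSpace V M]
  [MeasurableSpace V] [BorelSpace V] [MeasurableSpace M] [BorelSpace M]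
  [IsManifold 𝓘(ℝ, V) ∞ M] [CompactSpace M] [T2Space M] [ConnectedSpace M]
  [MeasurableSpace W] [BorelSpace W]

/-- **A volume bound in every dimension from a certificate.** -/
theorem main_of_certK (hm : 2 ≤ finrank ℝ V) (hW : finrank ℝ W = finrank ℝ V + 2)
    {F : M → W} (hF : SphImm V F) (hmin : ∀ x n, IsUnitNormal V F x n → meanCurv V F x n = 0)
    (hng : ¬ ∃ a : W, a ≠ 0 ∧ ∀ x, ⟪F x, a⟫ = 0) {C : ℝ} (hC2 : C ≤ 2) {D : ℤ} {L : List KT}
    (hok : okK L = true)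
    (hpos : ∀ e : W, ‖e‖ ^ 2 ≤ 25 / 36 → ∀ T ∈ Ioo (0 : ℝ) 1, ∀ N w : W, ‖N‖ = 1 → ‖w‖ = 1 →
      ∀ P Q Z Ξ : ℝ,
      Dsum (certK D L) T ![P, Q, ⟪N, w⟫, ⟪N, e⟫, ⟪w, e⟫, Z, Ξ, ⟪e, e⟫]
        + Dsum (certK D L) T (sw8 T ![P, Q, ⟪N, w⟫, ⟪N, e⟫, ⟪w, e⟫, Z, Ξ, ⟪e, e⟫]) ≤ 0)
    (hnum : ∀ Θ u r : ℝ, 6 / 5 ≤ Θ → Θ < C → 0 ≤ u → Θ ^ 2 * u ≤ 1 → u ^ 2 ≤ r → r ≤ u →
      Θ * V0 (certK D L) u r < V1 (certK D L) u r) :
    ENNReal.ofReal (C * sphereVol (finrank ℝ V)) ≤ volM V F univ := by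
  refine main_of_flux hm hW hF hmin hng hC2 (v0 := V0 (certK D L)) (v1 := V1 (certK D L))
    (fun N e B hNs hN _ hE hA he h5 => ?_) hnum
  have hfin : IsFiniteMeasure (volM V F) := isFiniteMeasure_volM hF
  have hG := gc_cone hW (by omega) hF hmin hNs hN
  exact law_U hE (by omega) hG he hA (certK D L) (hb_certK hok) hc_certK hd_certK
    (h0_certK hok) (h1_certK hok) (hpos e h5)

end

end

end Vale.Agent.P224.PU
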