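import Vale.Agent.P224.PU.KTerm

/-!
The substitution and the table of inner products for the Gaussian certificate in the variable `k`.

New variables: `0 = k`, `1 = P₊`, `2 = P₋`, `3 = g`, `4 = s₊`, `5 = s₋`, `6 = n₊`, `7 = n₋`, `8 = E`,
where `P = P₊ + P₋`, `Q = P₊ - P₋`, `c = 1 - 2 g`, `Z = k s₊ + s₋`, `Xi = s₊ - k s₋`,
`n_x = n₊ + n₋`, `n_y = n₊ - n₋`. Vectors: `1 = (N + ν) / 2`, `2 = (N - ν) / 2`, `3 = e`.
-/

namespace Vale.Agent.P224.PU

open Vale.Agent.P224.UE Vale.Agent.P224.POS Vale.Agent.P224.UG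
open Vale.Agent.P224.SH (pv pv')
open scoped RealInnerProductSpace

noncomputable section

/-- the table of inner products -/
def tabK : List (List PE) :=
  [[.c 1, .c 0, .c 0, .c 0],
   [.c 0, .sub (.c 1) (.v 3), .c 0, .v 6],
   [.c 0, .c 0, .v 3, .v 7],
   [.c 0, .v 6, .v 7, .v 8]]

/-- the substitution -/
def sb1 (i : Nat) : PE :=
  lk (fun _ => PE.c 0)
    [.add (.v 1) (.v 2), .sub (.v 1) (.v 2), .sub (.c 1) (.mul (.c 2) (.v 3)),
      .add (.v 6) (.v 7), .sub (.v 6) (.v 7), .add (.mul (.v 0) (.v 4)) (.v 5),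
      .sub (.v 4) (.mul (.v 0) (.v 5)), .v 8, .v 0] i

/-- the substitution for the exchanged points -/
def sb2 (i : Nat) : PE :=
  lk (fun _ => PE.c 0)
    [.sub (.v 1) (.v 2), .add (.v 1) (.v 2), .sub (.c 1) (.mul (.c 2) (.v 3)),
      .sub (.v 6) (.v 7), .add (.v 6) (.v 7), .sub (.mul (.v 0) (.v 4)) (.v 5),
      .add (.v 4) (.mul (.v 0) (.v 5)), .v 8, .v 0] i

/-- the values of the new variables -/
def vK (k : ℝ) (v : R8) (i : ℕ) : ℝ :=
  [k, (v 0 + v 1) / 2, (v 0 - v 1) / 2, (1 - v 2) / 2, (k * v 5 + v 6) / (1 + k ^ 2),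
    (v 5 - k * v 6) / (1 + k ^ 2), (v 3 + v 4) / 2, (v 3 - v 4) / 2, v 7].getD i 0

lemma vK_ge (k : ℝ) (v : R8) {i : ℕ} (hi : 9 ≤ i) : vK k v i = 0 := by
  unfold vK
  rw [List.getD_eq_default _ _ (by simpa using hi)]

lemma ev_sb1 (k : ℝ) (v : R8) (P : PE) : PE.ev (vK k v) (PE.sb sb1 P) = PE.ev (ck k v) P := by
  have hk : (1 + k ^ 2) ≠ 0 := by positivity
  rw [PE.ev_sb]
  congr 1
  funext i
  by_cases hi : i < 9
  · interval_cases i <;>
      simp only [sb1, lk_zero, lk_succ, vK, ck, PE.ev_add, PE.ev_sub, PE.ev_mul, PE.ev_v, PE.ev_c,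
        List.getD_cons_zero, List.getD_cons_succ] <;> field_simp <;> ring
  · unfold sb1 ck
    rw [lk_ge _ _ _ (by simpa using not_lt.1 hi), PE.ev_c,
      List.getD_eq_default _ _ (by simpa using not_lt.1 hi)]
    simp

lemma ev_sb2 {T : ℝ} (h0 : -1 < T) (h1 : T ≤ 1) (v : R8) (P : PE) :
    PE.ev (vK (kf T) v) (PE.sb sb2 P) = PE.ev (ck (kf T) (sw8 T v)) P := by
  have hk : (1 + kf T ^ 2) ≠ 0 := by positivity
  have e1 := one_sub_T h0 h1
  have e2 := kp_eq h0 h1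
  rw [PE.ev_sb]
  congr 1
  funext i
  by_cases hi : i < 9
  · have w0 : sw8 T v 0 = v 1 := rfl
    have w1 : sw8 T v 1 = v 0 := rfl
    have w2 : sw8 T v 2 = v 2 := rfl
    have w3 : sw8 T v 3 = v 4 := rfl
    have w4 : sw8 T v 4 = v 3 := rfl
    have w5 : sw8 T v 5 = kp T * v 6 - T * v 5 := rfl
    have w6 : sw8 T v 6 = kp T * v 5 + T * v 6 := rfl
    have w7 : sw8 T v 7 = v 7 := rfl
    interval_cases i <;>
      simp only [sb2, lk_zero, lk_succ, vK, ck, PE.ev_add, PE.ev_sub, PE.ev_mul, PE.ev_v, PE.ev_c,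
        List.getD_cons_zero, List.getD_cons_succ, w0, w1, w2, w3, w4, w5, w6, w7]
    · ring
    · ring
    · push_cast; ring
    · ring
    · ring
    · generalize kf T = κ at hk e1 e2
      field_simp
      linear_combination (-(v 6)) * e2 + v 5 * e1
    · generalize kf T = κ at hk e1 e2
      field_simp
      linear_combination (-(v 5)) * e2 - v 6 * e1
  · unfold sb2 ck
    rw [lk_ge _ _ _ (by simpa using not_lt.1 hi), PE.ev_c,
      List.getD_eq_default _ _ (by simpa using not_lt.1 hi)]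
    simp

/-- the sum of the terms -/
def sumK (L : List KT) : PE :=
  List.rec (motive := fun _ => PE) (PE.c 0) (fun t _ ih => PE.add t.P ih) L

/-- the left side -/
def lhsK (L : List KT) : PE := PE.add (PE.sb sb1 (sumK L)) (PE.sb sb2 (sumK L))

lemma ev_sumK {D : ℤ} (hD : D ≠ 0) (L : List KT) {T : ℝ} (h0 : -1 < T) (h1 : T < 1) (v : R8) :
    PE.ev (ck (kf T) v) (sumK L) = -((1 - T ^ 2) * (1 + kf T ^ 2) * D * Dsum (certK D L) T v) := by
  unfold Dsum certK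
  induction L with
  | nil => simp [sumK]
  | cons t L ih =>
    have e : sumK (t :: L) = PE.add t.P (sumK L) := rfl
    rw [e, PE.ev_add, ih, ev_KP hD t h0 h1, List.map_cons, List.map_cons, List.sum_cons]
    have e2 : (t.G D).1 = t.t := rfl
    rw [e2]
    ring

theorem ev_lhsK {D : ℤ} (hD : D ≠ 0) (L : List KT) {T : ℝ} (h0 : -1 < T) (h1 : T < 1) (v : R8) :
    PE.ev (vK (kf T) v) (lhsK L) = -((1 - T ^ 2) * (1 + kf T ^ 2) * D
      * (Dsum (certK D L) T v + Dsum (certK D L) T (sw8 T v))) := by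
  unfold lhsK
  rw [PE.ev_add, ev_sb1, ev_sb2 h0 h1.le, ev_sumK hD L h0 h1, ev_sumK hD L h0 h1]
  ring

/-- the vectors -/
def vecK {E : Type*} [NormedAddCommGroup E] [InnerProductSpace ℝ E] (N w e : E) (k : ℕ) : E :=
  [0, (1 / 2 : ℝ) • (N + w), (1 / 2 : ℝ) • (N - w), e].getD k 0

/-- the factors in `k`: `1`, `k`, `1 - k`, `k (1 - k)` -/
def mK (a : Nat) : PE :=
  lk (fun _ => PE.mul (.v 0) (.sub (.c 1) (.v 0))) [.c 1, .v 0, .sub (.c 1) (.v 0)] a

/-- the factors in `E`: `1`, `25 - 36 E` -/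
def mEK (a : Nat) : PE := lk (fun _ => PE.sub (.c 25) (.mul (.c 36) (.v 8))) [.c 1] a

lemma mK_nonneg {f : ℕ → ℝ} (h0 : 0 ≤ f 0) (h1 : f 0 ≤ 1) (a : ℕ) : 0 ≤ PE.ev f (mK a) := by
  unfold mK
  rcases a with _ | _ | _ | a
  · simp [lk_zero]
  · simpa [lk_zero, lk_succ] using h0
  · simpa [lk_zero, lk_succ] using h1
  · simp only [lk_succ, lk_nil, PE.ev_mul, PE.ev_sub, PE.ev_v, PE.ev_c, Int.cast_one]
    exact mul_nonneg h0 (by linarith)

lemma mEK_nonneg {f : ℕ → ℝ} (h : f 8 ≤ 25 / 36) (a : ℕ) : 0 ≤ PE.ev f (mEK a) := by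
  unfold mEK
  rcases a with _ | a
  · simp [lk_zero]
  · simp only [lk_succ, lk_nil, PE.ev_mul, PE.ev_sub, PE.ev_v, PE.ev_c]
    push_cast
    linarith

/-- the blocks with their factors -/
def mulK (L : List (Nat × Nat × Blk)) : List (PE × Blk) :=
  List.rec (motive := fun _ => List (PE × Blk)) []
    (fun x _ ih => (PE.mul (mK x.1) (mEK x.2.1), x.2.2) :: ih) L

lemma mulK_cons (x : Nat × Nat × Blk) (L : List (Nat × Nat × Blk)) :
    mulK (x :: L) = (PE.mul (mK x.1) (mEK x.2.1), x.2.2) :: mulK L := rfl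

lemma mem_mulK {L : List (Nat × Nat × Blk)} {B : PE × Blk} (h : B ∈ mulK L) :
    ∃ x ∈ L, B = (PE.mul (mK x.1) (mEK x.2.1), x.2.2) := by
  induction L with
  | nil => exact absurd h List.not_mem_nil
  | cons x L ih =>
    rw [mulK_cons] at h
    rcases List.mem_cons.1 h with h | h
    · exact ⟨x, List.mem_cons_self, h⟩
    · obtain ⟨y, hy, hB⟩ := ih h
      exact ⟨y, List.mem_cons_of_mem _ hy, hB⟩

/-- the right side of the identity -/
def rhsK (L : List (Nat × Nat × Blk)) : PE := rhsT tabK (mulK L)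

section

variable {E : Type*} [NormedAddCommGroup E] [InnerProductSpace ℝ E]

lemma isGramT_K (k : ℝ) {N w e : E} {v : R8} (hN : ‖N‖ = 1) (hw : ‖w‖ = 1) (v2 : v 2 = ⟪N, w⟫)
    (v3 : v 3 = ⟪N, e⟫) (v4 : v 4 = ⟪w, e⟫) (v7 : v 7 = ⟪e, e⟫) :
    IsGramT tabK (vK k v) (vecK N w e) := by
  have e1 : ⟪N, N⟫ = 1 := by rw [real_inner_self_eq_norm_sq, hN]; norm_num
  have e2 : ⟪w, w⟫ = 1 := by rw [real_inner_self_eq_norm_sq, hw]; norm_num
  have c1 : ⟪w, N⟫ = ⟪N, w⟫ := real_inner_comm _ _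
  have c2 : ⟪e, N⟫ = ⟪N, e⟫ := real_inner_comm _ _
  have c3 : ⟪e, w⟫ = ⟪w, e⟫ := real_inner_comm _ _
  refine isGramT_of (n := 4) (by norm_num) rfl (by decide) rfl ?_ ?_
  · intro k hk
    unfold vecK
    rw [List.getD_eq_default _ _ (by simpa using hk)]
  · intro k hk l hl
    interval_cases k <;> interval_cases l <;>
      simp only [grT, tabK, lk_zero, lk_succ, PE.ev_c, PE.ev_v, PE.ev_sub, vecK, vK,
        List.getD_cons_zero, List.getD_cons_succ, inner_zero_left, inner_zero_right,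
        real_inner_smul_left, real_inner_smul_right, inner_add_left, inner_add_right,
        inner_sub_left, inner_sub_right, v2, v3, v4, v7, e1, e2, c1, c2, c3, Int.cast_zero,
        Int.cast_one, and_self, and_false, false_and, if_true, if_false] <;> norm_num <;> ring

/-- **The pointwise inequality of the Gaussian law** from the kernel check. -/
theorem hpos_of_chkK {D : ℤ} (hD : 0 < D) {L : List KT} {B : List (Nat × Nat × Blk)}
    {Ms : List ℕ} {k : ℤ} (hk : 0 ≤ k)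
    (hid : chk Ms (PE.sub (lhsK L) (PE.mul (PE.c k) (rhsK B))) = true)
    (hB : ∀ b ∈ B, tri b.2.2.G 0 = true ∧ QPos b.2.2.G) {T : ℝ} (hT0 : 0 < T) (hT1 : T < 1)
    {N w e : E} (he : ‖e‖ ^ 2 ≤ 25 / 36) (hN : ‖N‖ = 1) (hw : ‖w‖ = 1) (P Q Z Xi : ℝ) :
    Dsum (certK D L) T ![P, Q, ⟪N, w⟫, ⟪N, e⟫, ⟪w, e⟫, Z, Xi, ⟪e, e⟫]
      + Dsum (certK D L) T (sw8 T ![P, Q, ⟪N, w⟫, ⟪N, e⟫, ⟪w, e⟫, Z, Xi, ⟪e, e⟫]) ≤ 0 := by
  set v : R8 := ![P, Q, ⟪N, w⟫, ⟪N, e⟫, ⟪w, e⟫, Z, Xi, ⟪e, e⟫] with hv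
  have h1 := ev_lhsK hD.ne' L (by linarith : -1 < T) hT1 v
  have h2 : 0 ≤ PE.ev (vK (kf T) v) (lhsK L) := by
    rw [ev_eq_of_chk hid _ fun i hi => vK_ge _ _ (by omega), PE.ev_mul, PE.ev_c]
    refine mul_nonneg (by exact_mod_cast hk) ?_
    refine sosT_nonneg _ (isGramT_K (kf T) hN hw rfl rfl rfl rfl) ?_ ?_
    · intro b hb
      obtain ⟨x, hx, rfl⟩ := mem_mulK hb
      exact hB x hx
    · intro b hb
      obtain ⟨x', hx', rfl⟩ := mem_mulK hb
      rw [PE.ev_mul]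
      have g0 : vK (kf T) v 0 = kf T := rfl
      have g8 : vK (kf T) v 8 = ⟪e, e⟫ := rfl
      refine mul_nonneg (mK_nonneg (by rw [g0]; exact kf_nonneg T)
        (by rw [g0]; exact kf_le_one hT0.le hT1.le) _) (mEK_nonneg ?_ _)
      rw [g8, real_inner_self_eq_norm_sq]
      exact he
  rw [h1] at h2
  have hT : 0 < 1 - T ^ 2 := by nlinarith
  have hD' : (0 : ℝ) < D := by exact_mod_cast hD
  have h3 : 0 < (1 - T ^ 2) * (1 + kf T ^ 2) * D := by positivity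
  nlinarith [mul_pos h3 h3]

end

end

end Vale.Agent.P224.PU
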