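import Vale.Agent.P224.SH.HD
import Vale.Agent.P224.POS.Sub
import Vale.Agent.P224.POS.SosT
import Vale.Agent.P224.UG.Def

/-!
Terms of the Gaussian certificate in the variable `k = √((1 - T) / (1 + T))` and their polynomial
expressions.
-/

namespace Vale.Agent.P224.PU

open Set Filter
open Vale.Agent.P224.UE Vale.Agent.P224.POS Vale.Agent.P224.UG
open Vale.Agent.P224.SH (pv pv')
open scoped RealInnerProductSpace Topology

noncomputable section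

/-- the variable `k` as a function of `T` -/
def kf (T : ℝ) : ℝ := √((1 - T) / (1 + T))

lemma kf_zero : kf 0 = 1 := by simp [kf]

lemma kf_one : kf 1 = 0 := by simp [kf]

lemma kf_nonneg (T : ℝ) : 0 ≤ kf T := Real.sqrt_nonneg _

lemma kf_sq {T : ℝ} (h0 : -1 < T) (h1 : T ≤ 1) : kf T ^ 2 = (1 - T) / (1 + T) :=
  Real.sq_sqrt (div_nonneg (by linarith) (by linarith))

lemma kf_pos {T : ℝ} (h0 : -1 < T) (h1 : T < 1) : 0 < kf T :=
  Real.sqrt_pos.2 (div_pos (by linarith) (by linarith))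

lemma kf_le_one {T : ℝ} (h0 : 0 ≤ T) (h1 : T ≤ 1) : kf T ≤ 1 := by
  have h2 := kf_sq (by linarith : -1 < T) h1
  have h3 : (1 - T) / (1 + T) ≤ 1 := by
    rw [div_le_one (by linarith)]
    linarith
  nlinarith [kf_nonneg T]

lemma one_sub_T {T : ℝ} (h0 : -1 < T) (h1 : T ≤ 1) : (1 + kf T ^ 2) * T = 1 - kf T ^ 2 := by
  have h : (1 + T) ≠ 0 := by linarith
  rw [kf_sq h0 h1]
  field_simp
  ring

lemma kap_eq {T : ℝ} (h0 : -1 < T) (h1 : T ≤ 1) :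
    (1 + kf T ^ 2) ^ 2 * (1 - T ^ 2) = 4 * kf T ^ 2 := by
  have h := one_sub_T h0 h1
  have : ((1 + kf T ^ 2) * T) ^ 2 = (1 - kf T ^ 2) ^ 2 := by rw [h]
  nlinarith

lemma kp_eq {T : ℝ} (h0 : -1 < T) (h1 : T ≤ 1) : (1 + kf T ^ 2) * kp T = 2 * kf T := by
  have h2 : 0 ≤ 1 - T ^ 2 := by nlinarith
  have h3 : kp T ^ 2 = 1 - T ^ 2 := Real.sq_sqrt h2
  have h4 : ((1 + kf T ^ 2) * kp T) ^ 2 = (2 * kf T) ^ 2 := by
    rw [mul_pow, h3, kap_eq h0 h1]
    ring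
  have h5 : 0 ≤ kp T := Real.sqrt_nonneg _
  have h6 := kf_nonneg T
  exact (pow_left_inj₀ (by positivity) (by positivity) two_ne_zero).1 h4

lemma continuousOn_kf : ContinuousOn kf (Icc 0 1) := by
  unfold kf
  refine Real.continuous_sqrt.comp_continuousOn ?_
  refine ContinuousOn.div (by fun_prop) (by fun_prop) fun T hT => ?_
  have := hT.1
  linarith

lemma hasDerivAt_kf {T : ℝ} (h0 : -1 < T) (h1 : T < 1) :
    HasDerivAt kf (-(kf T / (1 - T ^ 2))) T := by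
  have h2 : (1 : ℝ) + T ≠ 0 := by linarith
  have h3 : (1 : ℝ) - T ^ 2 ≠ 0 := by nlinarith
  have hk := kf_pos h0 h1
  have hd : HasDerivAt (fun T : ℝ => (1 - T) / (1 + T)) (((-1) * (1 + T) - (1 - T) * 1)
      / (1 + T) ^ 2) T :=
    ((hasDerivAt_id T).const_sub 1).div ((hasDerivAt_id T).const_add 1) h2
  have h4 := hd.sqrt (ne_of_gt (div_pos (by linarith : (0 : ℝ) < 1 - T)
    (by linarith : (0 : ℝ) < 1 + T)))
  have e : √((1 - T) / (1 + T)) = kf T := rfl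
  refine h4.congr_deriv ?_
  rw [e]
  have hk2 := kf_sq h0 h1.le
  have h5 : kf T * kf T * (1 + T) = 1 - T := by
    have : kf T * kf T = (1 - T) / (1 + T) := by rw [← hk2]; ring
    rw [this]
    field_simp
  field_simp
  nlinarith

/-- a term: monomial data and a polynomial in `k` -/
structure KT where
  /-- the term -/
  t : GTerm
  /-- the coefficient polynomial in `k` -/
  ψ : List ℤ

/-- the families whose rows are null -/
def isN (i : Fin 6) : Bool := Nat.beq i.val 1 || Nat.beq i.val 2 || Nat.beq i.val 5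

/-- the term with its coefficient function -/
def KT.G (D : ℤ) (x : KT) : GTerm × (ℝ → ℝ) × (ℝ → ℝ) :=
  (x.t, fun T => if isN x.t.fam = true then -(pv x.ψ (kf T) / (D * (1 - T ^ 2)))
      else pv x.ψ (kf T) / D,
    fun T => if isN x.t.fam = true then 0
      else -(pv' x.ψ (kf T) * kf T / (D * (1 - T ^ 2))))

/-- the certificate -/
def certK (D : ℤ) (L : List KT) : Cert := L.map (KT.G D)

/-- the polynomial in `k` as an expression (`v 8 = k`) -/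
def pvK (l : List ℤ) : PE :=
  List.rec (motive := fun _ => PE) (PE.c 0) (fun a _ ih => PE.add (PE.c a) (PE.mul (PE.v 8) ih)) l

/-- its derivative -/
def pvK' (l : List ℤ) : PE :=
  List.rec (motive := fun _ => PE) (PE.c 0)
    (fun _ l ih => PE.add (pvK l) (PE.mul (PE.v 8) ih)) l

lemma ev_pvK {f : ℕ → ℝ} {k : ℝ} (h : f 8 = k) (l : List ℤ) : PE.ev f (pvK l) = pv l k := by
  induction l with
  | nil => simp [pvK, pv]
  | cons a l ih =>
    have e : pvK (a :: l) = PE.add (PE.c a) (PE.mul (PE.v 8) (pvK l)) := rfl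
    rw [e, PE.ev_add, PE.ev_mul, PE.ev_c, PE.ev_v, ih, h]
    rfl

lemma ev_pvK' {f : ℕ → ℝ} {k : ℝ} (h : f 8 = k) (l : List ℤ) : PE.ev f (pvK' l) = pv' l k := by
  induction l with
  | nil => simp [pvK', pv']
  | cons a l ih =>
    have e : pvK' (a :: l) = PE.add (pvK l) (PE.mul (PE.v 8) (pvK' l)) := rfl
    rw [e, PE.ev_add, PE.ev_mul, PE.ev_v, ih, ev_pvK h, h]
    rfl

/-- the function `Q ^ a Z ^ b` -/
def gP (t : GTerm) : PE := PE.mul (PE.pow (PE.v 1) t.a) (PE.pow (PE.v 5) t.b)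
/-- its derivative in `Q` -/
def gQP (t : GTerm) : PE :=
  PE.mul (PE.mul (PE.c t.a) (PE.pow (PE.v 1) (t.a - 1))) (PE.pow (PE.v 5) t.b)
/-- its derivative in `Z` -/
def gZP (t : GTerm) : PE :=
  PE.mul (PE.pow (PE.v 1) t.a) (PE.mul (PE.c t.b) (PE.pow (PE.v 5) (t.b - 1)))
/-- the weight -/
def wP (t : GTerm) : PE :=
  PE.mul (PE.mul (PE.pow (PE.v 4) t.k) (PE.pow (PE.v 6) t.d)) (PE.pow (PE.v 7) t.l)

/-- `1 + k ^ 2` -/
def kpl : PE := PE.add (PE.c 1) (PE.pow (PE.v 8) 2)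
/-- `1 - k ^ 2` -/
def kmi : PE := PE.sub (PE.c 1) (PE.pow (PE.v 8) 2)

/-- the expression of a term -/
def KT.P (x : KT) : PE :=
  PE.mul (wP x.t) (match x.t.fam with
    | 0 => PE.add (PE.mul kpl (PE.mul (PE.mul (PE.v 8) (pvK' x.ψ)) (gP x.t)))
        (PE.mul (pvK x.ψ) (PE.add (PE.mul kmi (PE.mul (PE.pow (PE.v 0) 2) (gP x.t)))
          (PE.mul kpl (PE.mul (PE.v 0) (PE.add (PE.mul (PE.v 2) (gQP x.t))
            (PE.mul (PE.v 3) (gZP x.t)))))))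
    | 1 => PE.mul (pvK x.ψ) (PE.sub (PE.mul kpl (PE.add
          (PE.mul (PE.sub (PE.c 1) (PE.pow (PE.v 2) 2)) (gQP x.t))
          (PE.mul (PE.sub (PE.v 4) (PE.mul (PE.v 2) (PE.v 3))) (gZP x.t))))
        (PE.mul (PE.add (PE.mul kpl (PE.v 1)) (PE.mul kmi (PE.mul (PE.v 0) (PE.v 2)))) (gP x.t)))
    | 2 => PE.mul (pvK x.ψ) (PE.sub (PE.mul kpl (PE.add
          (PE.mul (PE.sub (PE.v 4) (PE.mul (PE.v 2) (PE.v 3))) (gQP x.t))
          (PE.mul (PE.sub (PE.v 7) (PE.pow (PE.v 3) 2)) (gZP x.t))))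
        (PE.mul (PE.add (PE.mul kpl (PE.v 5)) (PE.mul kmi (PE.mul (PE.v 0) (PE.v 3)))) (gP x.t)))
    | 3 => PE.mul kpl (PE.sub (PE.mul (PE.mul (PE.v 8) (pvK' x.ψ)) (PE.mul (PE.v 2) (gP x.t)))
        (PE.mul (pvK x.ψ) (PE.mul (PE.v 0) (PE.sub (PE.sub (PE.mul (PE.v 1) (gP x.t)) (gQP x.t))
          (PE.mul (PE.v 4) (gZP x.t))))))
    | 4 => PE.mul kpl (PE.sub (PE.mul (PE.mul (PE.v 8) (pvK' x.ψ)) (PE.mul (PE.v 3) (gP x.t)))
        (PE.mul (pvK x.ψ) (PE.mul (PE.v 0) (PE.sub (PE.sub (PE.mul (PE.v 5) (gP x.t))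
          (PE.mul (PE.v 4) (gQP x.t))) (PE.mul (PE.v 7) (gZP x.t))))))
    | 5 => PE.mul (pvK x.ψ) (PE.mul kpl (PE.sub
        (PE.mul (PE.v 2) (PE.sub (PE.add (PE.mul (PE.v 4) (gQP x.t)) (PE.mul (PE.v 7) (gZP x.t)))
          (PE.mul (PE.v 5) (gP x.t))))
        (PE.mul (PE.v 3) (PE.sub (PE.add (gQP x.t) (PE.mul (PE.v 4) (gZP x.t)))
          (PE.mul (PE.v 1) (gP x.t)))))))

/-- the cone data and `k` as values of the variables -/
def ck (k : ℝ) (v : R8) (i : ℕ) : ℝ :=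
  [v 0, v 1, v 2, v 3, v 4, v 5, v 6, v 7, k].getD i 0

lemma ev_KP {D : ℤ} (hD : D ≠ 0) (x : KT) {T : ℝ} (h0 : -1 < T) (h1 : T < 1) (v : R8) :
    PE.ev (ck (kf T) v) x.P = -((1 - T ^ 2) * (1 + kf T ^ 2) * D
      * x.t.D T ((x.G D).2.1 T) ((x.G D).2.2 T) v) := by
  have hD' : (D : ℝ) ≠ 0 := by exact_mod_cast hD
  have hT : (1 : ℝ) - T ^ 2 ≠ 0 := by nlinarith
  have c8 : ck (kf T) v 8 = kf T := rfl
  have c0 : ck (kf T) v 0 = v 0 := rfl
  have c1 : ck (kf T) v 1 = v 1 := rfl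
  have c2 : ck (kf T) v 2 = v 2 := rfl
  have c3 : ck (kf T) v 3 = v 3 := rfl
  have c4 : ck (kf T) v 4 = v 4 := rfl
  have c5 : ck (kf T) v 5 = v 5 := rfl
  have c6 : ck (kf T) v 6 = v 6 := rfl
  have c7 : ck (kf T) v 7 = v 7 := rfl
  have hk := one_sub_T h0 h1.le
  have hk' : 1 - kf T ^ 2 = (1 + kf T ^ 2) * T := hk.symm
  have b0 : (Nat.beq 0 1 || Nat.beq 0 2 || Nat.beq 0 5) = false := rfl
  have b1 : (Nat.beq 1 1 || Nat.beq 1 2 || Nat.beq 1 5) = true := rfl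
  have b2 : (Nat.beq 2 1 || Nat.beq 2 2 || Nat.beq 2 5) = true := rfl
  have b3 : (Nat.beq 3 1 || Nat.beq 3 2 || Nat.beq 3 5) = false := rfl
  have b4 : (Nat.beq 4 1 || Nat.beq 4 2 || Nat.beq 4 5) = false := rfl
  have b5 : (Nat.beq 5 1 || Nat.beq 5 2 || Nat.beq 5 5) = true := rfl
  obtain ⟨⟨fam, a, b, k, d, l⟩, ψ⟩ := x
  fin_cases fam
  all_goals
    simp only [KT.P, KT.G, isN, wP, gP, gQP, gZP, kpl, kmi, GTerm.D, GTerm.g, GTerm.gQ, GTerm.gZ,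
      GTerm.w, PE.ev_mul, PE.ev_add, PE.ev_sub, PE.ev_pow, PE.ev_v, PE.ev_c, ev_pvK c8, ev_pvK' c8,
      c0, c1, c2, c3, c4, c5, c6, c7, c8, Int.cast_one, Int.cast_natCast, b0, b1, b2, b3, b4, b5,
      if_true, Bool.false_eq_true, if_false]
  all_goals
    try rw [hk']
    generalize pv ψ (kf T) = A
    generalize pv' ψ (kf T) = B
    generalize kf T = κ
    field_simp
    ring

end

end Vale.Agent.P224.PU
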