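import Vale.Agent.P224.PU.Term

/-!
The substitution and the table of inner products for the Gaussian certificate.

New variables: `0 = T`, `1 = P₊`, `2 = P₋`, `3 = g`, `4 = n₊`, `5 = n₋`, `6 = E`, `7 = S`, `8 = ξ`,
`9 = η`, where `P = P₊ + P₋`, `Q = P₊ - P₋`, `c = 1 - 2 g`, `n_x = n₊ + n₋`, `n_y = n₊ - n₋`.
Vectors: `1 = (N + ν) / 2`, `2 = (N - ν) / 2`, `3 = e`.
-/

namespace Vale.Agent.P224.PU

open Vale.Agent.P224.UE Vale.Agent.P224.POS
open scoped RealInnerProductSpace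

noncomputable section

/-- the table of inner products -/
def tabU : List (List PE) :=
  [[.c 1, .c 0, .c 0, .c 0],
   [.c 0, .sub (.c 1) (.v 3), .c 0, .v 4],
   [.c 0, .c 0, .v 3, .v 5],
   [.c 0, .v 4, .v 5, .v 6]]

/-- the substitution -/
def sbU (i : Nat) : PE :=
  lk (fun _ => PE.c 0)
    [.v 7, .sub (.v 1) (.v 2), .add (.v 1) (.v 2), .sub (.c 1) (.mul (.c 2) (.v 3)),
      .add (.v 4) (.v 5), .sub (.v 4) (.v 5), .v 8, .v 9, .v 6, .v 0] i

/-- the values of the new variables -/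
def vU (T : ℝ) (d : R9) (i : ℕ) : ℝ :=
  [T, (d 2 + d 1) / 2, (d 2 - d 1) / 2, (1 - d 3) / 2, (d 4 + d 5) / 2, (d 4 - d 5) / 2, d 8, d 0,
    d 6, d 7].getD i 0

lemma vU_ge (T : ℝ) (d : R9) {i : ℕ} (hi : 10 ≤ i) : vU T d i = 0 := by
  unfold vU
  rw [List.getD_eq_default _ _ (by simpa using hi)]

lemma ev_sbU (T : ℝ) (d : R9) (P : PE) : PE.ev (vU T d) (PE.sb sbU P) = PE.ev (cdT T d) P := by
  rw [PE.ev_sb]
  congr 1
  funext i
  by_cases hi : i < 10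
  · interval_cases i <;>
      simp [sbU, lk_zero, lk_succ, vU, cdT, cd] <;> ring
  · unfold sbU
    rw [lk_ge _ _ _ (by simpa using not_lt.1 hi), PE.ev_c]
    unfold cdT cd
    rw [if_neg (by omega), dif_neg (by omega)]
    simp

/-- the vectors -/
def vecU {E : Type*} [NormedAddCommGroup E] [InnerProductSpace ℝ E] (N w e : E) (k : ℕ) : E :=
  [0, (1 / 2 : ℝ) • (N + w), (1 / 2 : ℝ) • (N - w), e].getD k 0

section

variable {E : Type*} [NormedAddCommGroup E] [InnerProductSpace ℝ E]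

lemma isGramT_U (T : ℝ) {N w e : E} {d : R9} (hN : ‖N‖ = 1) (hw : ‖w‖ = 1) (d3 : d 3 = ⟪N, w⟫)
    (d4 : d 4 = ⟪N, e⟫) (d5 : d 5 = ⟪w, e⟫) (d8 : d 8 = ⟪e, e⟫) :
    IsGramT tabU (vU T d) (vecU N w e) := by
  have e1 : ⟪N, N⟫ = 1 := by rw [real_inner_self_eq_norm_sq, hN]; norm_num
  have e2 : ⟪w, w⟫ = 1 := by rw [real_inner_self_eq_norm_sq, hw]; norm_num
  have c1 : ⟪w, N⟫ = ⟪N, w⟫ := real_inner_comm _ _
  have c2 : ⟪e, N⟫ = ⟪N, e⟫ := real_inner_comm _ _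
  have c3 : ⟪e, w⟫ = ⟪w, e⟫ := real_inner_comm _ _
  refine isGramT_of (n := 4) (by norm_num) rfl (by decide) rfl ?_ ?_
  · intro k hk
    unfold vecU
    rw [List.getD_eq_default _ _ (by simpa using hk)]
  · intro k hk l hl
    interval_cases k <;> interval_cases l <;>
      simp only [grT, tabU, lk_zero, lk_succ, PE.ev_c, PE.ev_v, PE.ev_sub, vecU, vU,
        List.getD_cons_zero, List.getD_cons_succ, inner_zero_left, inner_zero_right,
        real_inner_smul_left, real_inner_smul_right, inner_add_left, inner_add_right,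
        inner_sub_left, inner_sub_right, d3, d4, d5, d8, e1, e2, c1, c2, c3, Int.cast_zero,
        Int.cast_one, and_self, and_false, false_and, if_true, if_false] <;> norm_num <;> ring

/-- the factors in `T`: `1`, `T`, `1 - T`, `T (1 - T)` -/
def mT (a : Nat) : PE :=
  lk (fun _ => PE.mul (.v 0) (.sub (.c 1) (.v 0))) [.c 1, .v 0, .sub (.c 1) (.v 0)] a

/-- the factors in `E`: `1`, `25 - 36 E` -/
def mE (a : Nat) : PE := lk (fun _ => PE.sub (.c 25) (.mul (.c 36) (.v 6))) [.c 1] a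

lemma mT_nonneg {f : ℕ → ℝ} (h0 : 0 ≤ f 0) (h1 : f 0 ≤ 1) (a : ℕ) : 0 ≤ PE.ev f (mT a) := by
  unfold mT
  rcases a with _ | _ | _ | a
  · simp [lk_zero]
  · simpa [lk_zero, lk_succ] using h0
  · simpa [lk_zero, lk_succ] using h1
  · simp only [lk_succ, lk_nil, PE.ev_mul, PE.ev_sub, PE.ev_v, PE.ev_c, Int.cast_one]
    exact mul_nonneg h0 (by linarith)

lemma mE_nonneg {f : ℕ → ℝ} (h : f 6 ≤ 25 / 36) (a : ℕ) : 0 ≤ PE.ev f (mE a) := by
  unfold mE
  rcases a with _ | a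
  · simp [lk_zero]
  · simp only [lk_succ, lk_nil, PE.ev_mul, PE.ev_sub, PE.ev_v, PE.ev_c]
    push_cast
    linarith

/-- the blocks with their factors -/
def mulU (L : List (Nat × Nat × Blk)) : List (PE × Blk) :=
  List.rec (motive := fun _ => List (PE × Blk)) []
    (fun x _ ih => (PE.mul (mT x.1) (mE x.2.1), x.2.2) :: ih) L

lemma mulU_cons (x : Nat × Nat × Blk) (L : List (Nat × Nat × Blk)) :
    mulU (x :: L) = (PE.mul (mT x.1) (mE x.2.1), x.2.2) :: mulU L := rfl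

lemma mem_mulU {L : List (Nat × Nat × Blk)} {B : PE × Blk} (h : B ∈ mulU L) :
    ∃ x ∈ L, B = (PE.mul (mT x.1) (mE x.2.1), x.2.2) := by
  induction L with
  | nil => exact absurd h List.not_mem_nil
  | cons x L ih =>
    rw [mulU_cons] at h
    rcases List.mem_cons.1 h with h | h
    · exact ⟨x, List.mem_cons_self, h⟩
    · obtain ⟨y, hy, hB⟩ := ih h
      exact ⟨y, List.mem_cons_of_mem _ hy, hB⟩

/-- the right side of the identity -/
def rhsU (L : List (Nat × Nat × Blk)) : PE := rhsT tabU (mulU L)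

/-- **Nonnegativity from the kernel check of the identity**, general data. -/
theorem nonneg_of_chkU' {D : ℤ} (hD : 0 < D) {L : List UT} {B : List (Nat × Nat × Blk)}
    {Ms : List ℕ} {k : ℤ} (hk : 0 ≤ k)
    (hid : chk Ms (PE.sub (PE.sb sbU (lhsU L)) (PE.mul (PE.c k) (rhsU B))) = true)
    (hB : ∀ b ∈ B, tri b.2.2.G 0 = true ∧ QPos b.2.2.G) {T : ℝ} (hT0 : 0 ≤ T) (hT1 : T ≤ 1)
    {N w e : E} {d : R9} (he : ‖e‖ ^ 2 ≤ 25 / 36) (hN : ‖N‖ = 1) (hw : ‖w‖ = 1)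
    (d3 : d 3 = ⟪N, w⟫) (d4 : d 4 = ⟪N, e⟫) (d5 : d 5 = ⟪w, e⟫) (d8 : d 8 = ⟪e, e⟫) :
    0 ≤ UW D L T d := by
  refine UW_nonneg hD ?_
  rw [← ev_sbU, ev_eq_of_chk hid _ fun i hi => vU_ge _ _ (by omega), PE.ev_mul, PE.ev_c]
  refine mul_nonneg (by exact_mod_cast hk) ?_
  refine sosT_nonneg _ (isGramT_U T hN hw d3 d4 d5 d8) ?_ ?_
  · intro b hb
    obtain ⟨x, hx, rfl⟩ := mem_mulU hb
    exact hB x hx
  · intro b hb
    obtain ⟨x', hx', rfl⟩ := mem_mulU hb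
    rw [PE.ev_mul]
    have h0 : vU T d 0 = T := rfl
    have h6 : vU T d 6 = ⟪e, e⟫ := d8
    refine mul_nonneg (mT_nonneg (by rw [h0]; exact hT0) (by rw [h0]; exact hT1) _)
      (mE_nonneg ?_ _)
    rw [h6, real_inner_self_eq_norm_sq]
    exact he

/-- the same for pair data -/
theorem nonneg_of_chkU {D : ℤ} (hD : 0 < D) {L : List UT} {B : List (Nat × Nat × Blk)}
    {Ms : List ℕ} {k : ℤ} (hk : 0 ≤ k)
    (hid : chk Ms (PE.sub (PE.sb sbU (lhsU L)) (PE.mul (PE.c k) (rhsU B))) = true)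
    (hB : ∀ b ∈ B, tri b.2.2.G 0 = true ∧ QPos b.2.2.G) {T : ℝ} (hT0 : 0 ≤ T) (hT1 : T ≤ 1)
    {e x N y w : E} (he : ‖e‖ ^ 2 ≤ 25 / 36) (hN : ‖N‖ = 1) (hw : ‖w‖ = 1) :
    0 ≤ UW D L T (dv x N y w e) :=
  nonneg_of_chkU' hD hk hid hB hT0 hT1 he hN hw rfl rfl rfl rfl

end

end

end Vale.Agent.P224.PU
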