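import Vale.Agent.P224.SH.HD
import Vale.Agent.P224.POS.Sub
import Vale.Agent.P224.POS.SosT

/-!
Terms of the Gaussian certificate and their polynomial expressions.
-/

namespace Vale.Agent.P224.PU

open Vale.Agent.P224.UE Vale.Agent.P224.POS
open Vale.Agent.P224.SH (pv pv')
open scoped RealInnerProductSpace

noncomputable section

/-- a term: family (`0`: field row with the position, `1`: closed row with the position,
`2`: field row with the normal), exponents of `Q`, `n_y`, `E`, polynomial in `T` -/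
structure UT where
  /-- the family -/
  fam : ℕ
  /-- the exponent of `Q` -/
  a : ℕ
  /-- the exponent of `n_y` -/
  k : ℕ
  /-- the exponent of `E` -/
  l : ℕ
  /-- the coefficient polynomial -/
  φ : List ℤ

/-- `1 - T ^ 2` times the integrand of a term -/
def UT.J (t : UT) (T : ℝ) (d : R9) : ℝ :=
  match t.fam with
  | 0 => d 5 ^ t.k * d 8 ^ t.l * ((1 - T ^ 2) * pv' t.φ T * d 1 ^ t.a
      - pv t.φ T * (d 2 * (T * (d 2 * d 1 ^ t.a) + d 3 * (t.a * d 1 ^ (t.a - 1)))))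
  | 1 => d 5 ^ t.k * d 8 ^ t.l * (pv t.φ T * (d 2 * (t.a * d 1 ^ (t.a - 1) - d 1 * d 1 ^ t.a))
      - (1 - T ^ 2) * pv' t.φ T * (d 3 * d 1 ^ t.a))
  | _ => d 5 ^ t.k * d 8 ^ t.l * (pv t.φ T * ((1 - d 3 ^ 2) * (t.a * d 1 ^ (t.a - 1))
      - (d 1 + T * (d 2 * d 3)) * d 1 ^ t.a))

/-- `1 - T ^ 2` times the sum of the integrands, symmetrised, with the opposite sign -/
def UW (D : ℤ) (L : List UT) (T : ℝ) (d : R9) : ℝ :=
  -((L.map fun t => t.J T d + t.J T (sw9 d)).sum / (2 * D))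

/-- the polynomial in `T` as an expression (`v 9 = T`) -/
def pvP (l : List ℤ) : PE :=
  List.rec (motive := fun _ => PE) (PE.c 0) (fun a _ ih => PE.add (PE.c a) (PE.mul (PE.v 9) ih)) l

/-- its derivative -/
def pvP' (l : List ℤ) : PE :=
  List.rec (motive := fun _ => PE) (PE.c 0)
    (fun _ l ih => PE.add (pvP l) (PE.mul (PE.v 9) ih)) l

/-- the pair data and `T` as values of the variables -/
def cdT (T : ℝ) (d : R9) (i : ℕ) : ℝ := if i = 9 then T else cd d i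

lemma ev_pvP {f : ℕ → ℝ} {T : ℝ} (h : f 9 = T) (l : List ℤ) : PE.ev f (pvP l) = pv l T := by
  induction l with
  | nil => simp [pvP, pv]
  | cons a l ih =>
    have e : pvP (a :: l) = PE.add (PE.c a) (PE.mul (PE.v 9) (pvP l)) := rfl
    rw [e, PE.ev_add, PE.ev_mul, PE.ev_c, PE.ev_v, ih, h]
    rfl

lemma ev_pvP' {f : ℕ → ℝ} {T : ℝ} (h : f 9 = T) (l : List ℤ) : PE.ev f (pvP' l) = pv' l T := by
  induction l with
  | nil => simp [pvP', pv']
  | cons a l ih =>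
    have e : pvP' (a :: l) = PE.add (pvP l) (PE.mul (PE.v 9) (pvP' l)) := rfl
    rw [e, PE.ev_add, PE.ev_mul, PE.ev_v, ih, ev_pvP h, h]
    rfl

/-- `1 - T ^ 2` -/
def kP : PE := PE.sub (PE.c 1) (PE.pow (PE.v 9) 2)

/-- the derivative of `Q ^ a` -/
def qP (a : ℕ) : PE := PE.mul (PE.c a) (PE.pow (PE.v 1) (a - 1))

/-- the expression of a term -/
def UT.P (t : UT) : PE :=
  PE.mul (PE.mul (PE.pow (PE.v 5) t.k) (PE.pow (PE.v 8) t.l))
    (match t.fam with
    | 0 => PE.sub (PE.mul (PE.mul kP (pvP' t.φ)) (PE.pow (PE.v 1) t.a))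
        (PE.mul (pvP t.φ) (PE.mul (PE.v 2) (PE.add (PE.mul (PE.v 9)
          (PE.mul (PE.v 2) (PE.pow (PE.v 1) t.a))) (PE.mul (PE.v 3) (qP t.a)))))
    | 1 => PE.sub (PE.mul (pvP t.φ) (PE.mul (PE.v 2) (PE.sub (qP t.a)
        (PE.mul (PE.v 1) (PE.pow (PE.v 1) t.a)))))
        (PE.mul (PE.mul kP (pvP' t.φ)) (PE.mul (PE.v 3) (PE.pow (PE.v 1) t.a)))
    | _ => PE.mul (pvP t.φ) (PE.sub (PE.mul (PE.sub (PE.c 1) (PE.pow (PE.v 3) 2)) (qP t.a))
        (PE.mul (PE.add (PE.v 1) (PE.mul (PE.v 9) (PE.mul (PE.v 2) (PE.v 3))))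
          (PE.pow (PE.v 1) t.a))))

lemma ev_P (t : UT) (T : ℝ) (d : R9) : PE.ev (cdT T d) t.P = t.J T d := by
  have h9 : cdT T d 9 = T := rfl
  have h1 : cdT T d 1 = d 1 := rfl
  have h2 : cdT T d 2 = d 2 := rfl
  have h3 : cdT T d 3 = d 3 := rfl
  have h5 : cdT T d 5 = d 5 := rfl
  have h8 : cdT T d 8 = d 8 := rfl
  obtain ⟨fam, a, k, l, φ⟩ := t
  rcases fam with _ | _ | fam <;>
    simp only [UT.P, UT.J, kP, qP, PE.ev_mul, PE.ev_sub, PE.ev_add, PE.ev_pow, PE.ev_v, PE.ev_c,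
      ev_pvP h9, ev_pvP' h9, h9, h1, h2, h3, h5, h8, Int.cast_one, Int.cast_natCast]

/-- the exchange of the two points -/
def swT (i : Nat) : PE :=
  lk (fun j => PE.v (Nat.add j 9))
    [PE.v 0, PE.v 2, PE.v 1, PE.v 3, PE.v 5, PE.v 4, PE.v 7, PE.v 6, PE.v 8] i

lemma ev_swT (T : ℝ) (d : R9) (i : ℕ) : PE.ev (cdT T d) (swT i) = cdT T (sw9 d) i := by
  by_cases hi : i < 9
  · interval_cases i <;> rfl
  · obtain ⟨j, rfl⟩ := Nat.exists_eq_add_of_le (not_lt.1 hi)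
    unfold swT
    rw [lk_ge _ _ _ (by simp)]
    have e : 9 + j - List.length [PE.v 0, PE.v 2, PE.v 1, PE.v 3, PE.v 5, PE.v 4, PE.v 7, PE.v 6,
        PE.v 8] = j := by simp
    rw [e]
    have e2 : Nat.add j 9 = 9 + j := Nat.add_comm j 9
    rw [PE.ev_v, e2]
    unfold cdT
    by_cases hj : 9 + j = 9
    · rw [if_pos hj, if_pos hj]
    · rw [if_neg hj, if_neg hj]
      unfold cd
      rw [dif_neg (by omega), dif_neg (by omega)]

/-- the sum of the terms -/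
def sumU (L : List UT) : PE :=
  List.rec (motive := fun _ => PE) (PE.c 0) (fun t _ ih => PE.add t.P ih) L

/-- the left side: `2 D (1 - T ^ 2)` times the symmetrised integrand -/
def lhsU (L : List UT) : PE :=
  PE.sub (PE.c 0) (PE.add (sumU L) (PE.sb swT (sumU L)))

lemma ev_sumU (L : List UT) (T : ℝ) (d : R9) :
    PE.ev (cdT T d) (sumU L) = (L.map fun t => t.J T d).sum := by
  induction L with
  | nil => simp [sumU]
  | cons t L ih =>
    have e : sumU (t :: L) = PE.add t.P (sumU L) := rfl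
    rw [e, PE.ev_add, ih, ev_P, List.map_cons, List.sum_cons]

theorem ev_lhsU {D : ℤ} (hD : D ≠ 0) (L : List UT) (T : ℝ) (d : R9) :
    PE.ev (cdT T d) (lhsU L) = 2 * D * UW D L T d := by
  have hD' : (D : ℝ) ≠ 0 := by exact_mod_cast hD
  have h1 : PE.ev (cdT T d) (PE.sb swT (sumU L)) = (L.map fun t => t.J T (sw9 d)).sum := by
    rw [PE.ev_sb, ← ev_sumU]
    congr 1
    funext i
    exact ev_swT T d i
  unfold lhsU UW
  rw [PE.ev_sub, PE.ev_add, PE.ev_c, ev_sumU, h1, List.sum_map_add]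
  push_cast
  field_simp
  ring

/-- nonnegativity -/
theorem UW_nonneg {D : ℤ} (hD : 0 < D) {L : List UT} {T : ℝ} {d : R9}
    (h : 0 ≤ PE.ev (cdT T d) (lhsU L)) : 0 ≤ UW D L T d := by
  rw [ev_lhsU hD.ne'] at h
  have hD' : (0 : ℝ) < 2 * D := by
    have : (0 : ℝ) < D := by exact_mod_cast hD
    linarith
  exact nonneg_of_mul_nonneg_right h hD'

end

end Vale.Agent.P224.PU
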