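import Vale.Agent.P224.PU.FinK

/-!
The values at the two ends of a certificate in the variable `k`.
-/

namespace Vale.Agent.P224.PU

open Vale.Agent.P224.UE Vale.Agent.P224.UG Vale.Agent.P224.POS
open Vale.Agent.P224.SH (pv pv')

noncomputable section

variable {D : ℤ}

lemma v_isN {t : GTerm} (h : isN t.fam = true) (u r : ℝ) : t.v0 u r = 0 ∧ t.v1 u r = 0 := by
  obtain ⟨fam, a, b, k, d, l⟩ := t
  fin_cases fam
  · exact absurd h (by simp [isN])
  · exact ⟨rfl, rfl⟩
  · exact ⟨rfl, rfl⟩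
  · exact absurd h (by simp [isN])
  · exact absurd h (by simp [isN])
  · exact ⟨rfl, rfl⟩

lemma term0 (x : KT) (u r : ℝ) :
    (x.G D).2.1 0 * x.t.v0 u r = (lsum x.ψ : ℝ) / D * x.t.v0 u r := by
  by_cases h : isN x.t.fam = true
  · rw [(v_isN h u r).1, mul_zero, mul_zero]
  · rw [x.phi_zero (by simpa using h), pv_at_one]

lemma term1 (x : KT) (u r : ℝ) :
    (x.G D).2.1 1 * x.t.v1 u r = (x.ψ.headD 0 : ℤ) / D * x.t.v1 u r := by
  by_cases h : isN x.t.fam = true
  · rw [(v_isN h u r).2, mul_zero, mul_zero]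
  · rw [x.phi_one (by simpa using h), pv_at_zero]

lemma V0_cons (x : KT) (L : List KT) (u r : ℝ) :
    V0 (certK D (x :: L)) u r = (lsum x.ψ : ℝ) / D * x.t.v0 u r + V0 (certK D L) u r := by
  rw [← term0]
  rfl

lemma V1_cons (x : KT) (L : List KT) (u r : ℝ) :
    V1 (certK D (x :: L)) u r = (x.ψ.headD 0 : ℤ) / D * x.t.v1 u r + V1 (certK D L) u r := by
  rw [← term1]
  rfl

lemma V0_nil (u r : ℝ) : V0 (certK D []) u r = 0 := rfl

lemma V1_nil (u r : ℝ) : V1 (certK D []) u r = 0 := rfl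

/-- adding to the coefficient list -/
def addAt : ℕ → Int → List Int → List Int
  | 0, a, [] => [a]
  | 0, a, b :: l => (a + b) :: l
  | n + 1, a, [] => 0 :: addAt n a []
  | n + 1, a, b :: l => b :: addAt n a l

end

end Vale.Agent.P224.PU
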